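import Vale.Agent.Lib.P209.Count

namespace Vale.Agent.Lib.P209.H49

open Vale.Agent.Lib.P209

/-- Choice of the grid parameters `M` (subdivision range) and `K` (grid size), with room for
`n + 1` big cubes. -/
theorem exists_params_big (n : ℕ) (hn : 1 ≤ n) (ε : ℝ) (hε : 0 < ε) (hε2 : ε ≤ 1 / 2) :
    ∃ M K : ℕ, 1 ≤ M ∧ 1 ≤ K ∧
      (M : ℝ) * n.factorial + (((K : ℝ) + n) * (1 + 1 / M)) ^ n * (1 - ε) +
          ((n : ℝ) + 1) * (((K : ℝ) + n + ((n : ℝ) + 1)) ^ n - ((K : ℝ) + n) ^ n) ≤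
        ((K : ℝ) + 1) ^ n := by
  obtain ⟨M, hM⟩ := exists_nat_ge ((2 : ℝ) ^ (n + 1) / ε + 1)
  have hMpos : (1 : ℝ) ≤ M := by
    have : 0 < (2 : ℝ) ^ (n + 1) / ε := by positivity
    linarith
  have hM0 : (0 : ℝ) < M := by linarith
  have hM1 : 1 ≤ M := by exact_mod_cast hMpos
  have hx0 : (0 : ℝ) ≤ 1 / M := by positivity
  have hxle : (1 : ℝ) / M ≤ ε / 2 ^ (n + 1) := by
    rw [div_le_div_iff₀ hM0 (by positivity)]
    have h1 : (2 : ℝ) ^ (n + 1) / ε ≤ M := by linarith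
    rw [div_le_iff₀ hε] at h1
    linarith
  have hx1 : (1 : ℝ) / M ≤ 1 := by
    rw [div_le_one hM0]
    exact hMpos
  have hpow : (1 + 1 / (M : ℝ)) ^ n ≤ 1 + ε / 2 := by
    have h1 := pow_one_add_le n (1 / (M : ℝ)) hx0 hx1
    have h2 : ((2 : ℝ) ^ n - 1) * (1 / (M : ℝ)) ≤ 2 ^ n * (ε / 2 ^ (n + 1)) := by
      have h3 : (2 : ℝ) ^ n - 1 ≤ 2 ^ n := by linarith
      have h4 : (0 : ℝ) ≤ 2 ^ n := by positivity
      calc ((2 : ℝ) ^ n - 1) * (1 / (M : ℝ)) ≤ 2 ^ n * (1 / (M : ℝ)) :=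
            mul_le_mul_of_nonneg_right h3 hx0
        _ ≤ 2 ^ n * (ε / 2 ^ (n + 1)) := mul_le_mul_of_nonneg_left hxle h4
    have h5 : (2 : ℝ) ^ n * (ε / 2 ^ (n + 1)) = ε / 2 := by
      rw [pow_succ]
      field_simp
    linarith
  have hfac : (1 + 1 / (M : ℝ)) ^ n * (1 - ε) ≤ 1 - ε / 2 := by
    have h1 : (1 + 1 / (M : ℝ)) ^ n * (1 - ε) ≤ (1 + ε / 2) * (1 - ε) :=
      mul_le_mul_of_nonneg_right hpow (by linarith)
    have h2 : (1 + ε / 2) * (1 - ε) = 1 - ε / 2 - ε ^ 2 / 2 := by ring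
    have h3 : 0 ≤ ε ^ 2 := sq_nonneg ε
    linarith
  obtain ⟨K, hK⟩ := exists_nat_ge (8 * (n : ℝ) ^ 2 / ε + 8 * (M : ℝ) * n.factorial / ε +
    8 * ((n : ℝ) + 1) ^ 2 * 2 ^ n / ε + ((n : ℝ) + 1) + 1)
  have hn0 : (0 : ℝ) ≤ n := Nat.cast_nonneg n
  have hq1 : (0 : ℝ) ≤ 8 * (n : ℝ) ^ 2 / ε := by positivity
  have hq2 : (0 : ℝ) ≤ 8 * (M : ℝ) * n.factorial / ε := by positivity
  have hq3 : (0 : ℝ) ≤ 8 * ((n : ℝ) + 1) ^ 2 * 2 ^ n / ε := by positivity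
  have hKpos : (1 : ℝ) ≤ K := by linarith
  refine ⟨M, K, hM1, by exact_mod_cast hKpos, ?_⟩
  set N : ℝ := (K : ℝ) + n with hN
  have hNpos : 0 < N := by rw [hN]; linarith
  have hN1 : 8 * (n : ℝ) ^ 2 / ε ≤ N := by rw [hN]; linarith
  have hN2 : 8 * (M : ℝ) * n.factorial / ε ≤ N := by rw [hN]; linarith
  have hN3 : 8 * ((n : ℝ) + 1) ^ 2 * 2 ^ n / ε ≤ N := by rw [hN]; linarith
  have hN4 : (n : ℝ) + 1 ≤ N := by rw [hN]; linarith
  have hB : N ^ n * (1 - (n : ℝ) ^ 2 / N) ≤ (K : ℝ) ^ n := by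
    have h1 : (K : ℝ) = N * (1 + (-(n : ℝ) / N)) := by
      rw [hN]
      field_simp
      ring
    have h2 : (-2 : ℝ) ≤ -(n : ℝ) / N := by
      rw [neg_div, neg_le_neg_iff]
      have : (n : ℝ) / N ≤ 1 := by
        rw [div_le_one hNpos, hN]
        linarith
      linarith
    have h3 := one_add_mul_le_pow h2 n
    have h4 : (1 - (n : ℝ) ^ 2 / N) = 1 + (n : ℝ) * (-(n : ℝ) / N) := by
      field_simp
      ring
    rw [h4]
    calc N ^ n * (1 + (n : ℝ) * (-(n : ℝ) / N)) ≤ N ^ n * (1 + -(n : ℝ) / N) ^ n :=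
          mul_le_mul_of_nonneg_left h3 (by positivity)
      _ = (N * (1 + -(n : ℝ) / N)) ^ n := (mul_pow _ _ _).symm
      _ = (K : ℝ) ^ n := by rw [← h1]
  have hK1 : (K : ℝ) ^ n ≤ ((K : ℝ) + 1) ^ n := pow_le_pow_left₀ (by linarith) (by linarith) n
  have hi : (n : ℝ) ^ 2 / N ≤ ε / 8 := by
    rw [div_le_iff₀ hNpos]
    rw [div_le_iff₀ hε] at hN1
    linarith
  have hNn : N ≤ N ^ n := by
    have hN1' : 1 ≤ N := by rw [hN]; linarith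
    calc N = N ^ 1 := (pow_one N).symm
      _ ≤ N ^ n := pow_le_pow_right₀ hN1' hn
  have hii : (M : ℝ) * n.factorial ≤ ε / 8 * N ^ n := by
    rw [div_le_iff₀ hε] at hN2
    have h1 : N * ε ≤ N ^ n * ε := mul_le_mul_of_nonneg_right hNn hε.le
    linarith
  have hmain : (N * (1 + 1 / (M : ℝ))) ^ n * (1 - ε) ≤ N ^ n * (1 - ε / 2) := by
    rw [mul_pow, mul_assoc]
    exact mul_le_mul_of_nonneg_left hfac (by positivity)
  have hNnpos : 0 < N ^ n := by positivity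
  -- the new summand
  have hc0 : (0 : ℝ) ≤ ((n : ℝ) + 1) / N := by positivity
  have hc1 : ((n : ℝ) + 1) / N ≤ 1 := by
    rw [div_le_one hNpos]; exact hN4
  have hbig : (N + ((n : ℝ) + 1)) ^ n ≤ N ^ n * (1 + (2 ^ n - 1) * (((n : ℝ) + 1) / N)) := by
    have h1 : N + ((n : ℝ) + 1) = N * (1 + ((n : ℝ) + 1) / N) := by
      field_simp
    rw [h1, mul_pow]
    exact mul_le_mul_of_nonneg_left (pow_one_add_le n _ hc0 hc1) (by positivity)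
  have h2n : (1 : ℝ) ≤ 2 ^ n := one_le_pow₀ (by norm_num)
  have hiii : ((n : ℝ) + 1) * ((N + ((n : ℝ) + 1)) ^ n - N ^ n) ≤ ε / 8 * N ^ n := by
    have h1 : (N + ((n : ℝ) + 1)) ^ n - N ^ n ≤ N ^ n * ((2 ^ n - 1) * (((n : ℝ) + 1) / N)) := by
      have : N ^ n * (1 + (2 ^ n - 1) * (((n : ℝ) + 1) / N))
          = N ^ n + N ^ n * ((2 ^ n - 1) * (((n : ℝ) + 1) / N)) := by ring
      linarith
    have h3 : ((n : ℝ) + 1) * ((2 ^ n - 1) * (((n : ℝ) + 1) / N)) ≤ ε / 8 := by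
      have h4 : ((n : ℝ) + 1) * ((2 ^ n - 1) * (((n : ℝ) + 1) / N))
          = ((n : ℝ) + 1) ^ 2 * (2 ^ n - 1) / N := by
        field_simp
      rw [h4, div_le_iff₀ hNpos]
      rw [div_le_iff₀ hε] at hN3
      have h5 : ((n : ℝ) + 1) ^ 2 * (2 ^ n - 1) ≤ ((n : ℝ) + 1) ^ 2 * 2 ^ n :=
        mul_le_mul_of_nonneg_left (by linarith) (by positivity)
      linarith
    calc ((n : ℝ) + 1) * ((N + ((n : ℝ) + 1)) ^ n - N ^ n)
        ≤ ((n : ℝ) + 1) * (N ^ n * ((2 ^ n - 1) * (((n : ℝ) + 1) / N))) :=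
          mul_le_mul_of_nonneg_left h1 (by positivity)
      _ = N ^ n * (((n : ℝ) + 1) * ((2 ^ n - 1) * (((n : ℝ) + 1) / N))) := by ring
      _ ≤ N ^ n * (ε / 8) := mul_le_mul_of_nonneg_left h3 hNnpos.le
      _ = ε / 8 * N ^ n := by ring
  have hprod := mul_le_mul_of_nonneg_left hi hNnpos.le
  have hB' : N ^ n - N ^ n * ((n : ℝ) ^ 2 / N) ≤ (K : ℝ) ^ n := by
    have h1 : N ^ n * (1 - (n : ℝ) ^ 2 / N) = N ^ n - N ^ n * ((n : ℝ) ^ 2 / N) := by ring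
    linarith
  have hmain' : (N * (1 + 1 / (M : ℝ))) ^ n * (1 - ε) ≤ N ^ n - ε / 2 * N ^ n := by
    have h1 : N ^ n * (1 - ε / 2) = N ^ n - ε / 2 * N ^ n := by ring
    linarith
  have hprod' : N ^ n * ((n : ℝ) ^ 2 / N) ≤ ε / 8 * N ^ n := by
    have h1 : N ^ n * (ε / 8) = ε / 8 * N ^ n := by ring
    linarith
  have hpos : 0 ≤ ε * N ^ n := by positivity
  have hgoal : (N + ((n : ℝ) + 1)) ^ n = ((K : ℝ) + n + ((n : ℝ) + 1)) ^ n := by rw [hN]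
  linarith

end Vale.Agent.Lib.P209.H49
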